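import Mathlib
import Vale.Agent.Results.P317.TruncRatio
import Vale.Agent.Results.P317.GirthRatio
import Vale.Agent.Results.P317.GirthMonteCarlo

/-! P317: the three results on counting common bases of two matroids, in one statement. -/

namespace Vale.Agent.Results.P317.AAllResults

/-- Let `M₁`, `M₂` be matroids of rank `r` on a ground set with `n` elements, and let `c` be a
natural number.

First part.  If every `M₂`-independent set with at most `r - c` elements is `M₁`-independent and
there is a common base, then the number of bases of `M₂` is at most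
`(r (n - r) + 1) ^ (c (c + 1) / 2)` times the number of common bases.

Second part.  The same conclusion if every circuit of `M₁` has more than `r - c` elements
(`c = 1`: `M₁` is paving) and there is a common base.

Third part.  If every circuit of either matroid has more than `r - c` elements, then for
`m ≥ (r (n - r) + 1) ^ (2 c (c + 1)) * log (2 / δ) / (2 ε ^ 2)` and for at least a `1 - δ` fraction
of all sequences `ω 0, …, ω (m-1)` of `r`-subsets, the number
`binom n r * (number of i with ω i independent in both) / m` is within `ε N` of the number `N` of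
common bases. -/
theorem result {α : Type*} [Fintype α] (M₁ M₂ : Matroid α) (r c : ℕ)
    (hE₁ : M₁.E = Set.univ) (hE₂ : M₂.E = Set.univ)
    (hr₁ : M₁.eRank = r) (hr₂ : M₂.eRank = r) :
    ((∀ S : Set α, M₂.Indep S → S.ncard + c ≤ r → M₁.Indep S) →
      (∃ B, M₁.IsBase B ∧ M₂.IsBase B) →
      {B | M₂.IsBase B}.ncard ≤
        (r * (Fintype.card α - r) + 1) ^ (c * (c + 1) / 2) *
          {B | M₁.IsBase B ∧ M₂.IsBase B}.ncard) ∧
    ((∀ C, M₁.IsCircuit C → r < C.ncard + c) →
      (∃ B, M₁.IsBase B ∧ M₂.IsBase B) →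
      {B | M₂.IsBase B}.ncard ≤
        (r * (Fintype.card α - r) + 1) ^ (c * (c + 1) / 2) *
          {B | M₁.IsBase B ∧ M₂.IsBase B}.ncard) ∧
    ((∀ C, M₁.IsCircuit C → r < C.ncard + c) →
      (∀ C, M₂.IsCircuit C → r < C.ncard + c) →
      ∀ ε δ : ℝ, 0 < ε → 0 < δ → δ < 1 → ∀ m : ℕ,
      ((r * (Fintype.card α - r) + 1 : ℕ) : ℝ) ^ (2 * c * (c + 1)) * Real.log (2 / δ)
        / (2 * ε ^ 2) ≤ m →
      (1 - δ) * (Nat.card (Fin m → {X : Finset α // X.card = r}) : ℝ) ≤
        Nat.card {ω : Fin m → {X : Finset α // X.card = r} //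
          |((Fintype.card α).choose r : ℝ) *
              (Nat.card {i : Fin m // M₁.Indep (ω i : Set α) ∧ M₂.Indep (ω i : Set α)}) / m
            - ({B | M₁.IsBase B ∧ M₂.IsBase B}.ncard : ℝ)| ≤
          ε * ({B | M₁.IsBase B ∧ M₂.IsBase B}.ncard : ℝ)}) :=
  ⟨fun hdom hne => Vale.Agent.Results.P317.TruncRatio.result M₁ M₂ r c hE₁ hE₂ hr₁ hr₂ hdom hne,
   fun hg hne => Vale.Agent.Results.P317.GirthRatio.result M₁ M₂ r c hE₁ hE₂ hr₁ hr₂ hg hne,
   fun hg₁ hg₂ ε δ hε hδ hδ1 m hm =>
     Vale.Agent.Results.P317.GirthMonteCarlo.result M₁ M₂ r c hE₁ hE₂ hr₁ hr₂ hg₁ hg₂ ε δ hε hδ hδ1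
       m hm⟩

end Vale.Agent.Results.P317.AAllResults
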